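import Vale.Agent.P133.H330.Top

/-!
P133 (helper359): subspaces of Euclidean spaces, and spaces with countably many
finite-dimensional strata.
-/

namespace Vale.Agent.P133.H359

open Vale.Agent.P133.H330 TopologicalSpace

universe u

/-- the empty space -/
theorem smallInd_of_isEmpty {X : Type u} [TopologicalSpace X] (h : IsEmpty X) : SmallInd X :=
  smallInd_of_compactBase fun x => h.elim x

/-- finite unions of closed subspaces of the class, with any countable index set -/
theorem smallInd_of_iUnion_countable {X : Type u} [TopologicalSpace X] {I : Type} [Encodable I]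
    {F : I → Set X} (hF : ∀ i, IsClosed (F i)) (h : ∀ x, ∃ i, x ∈ F i)
    (hS : ∀ i, SmallInd (F i)) : SmallInd X := by
  let F' : ℕ → Set X := fun k =>
    match (Encodable.decode k : Option I) with
    | none => ∅
    | some i => F i
  have hk : ∀ k, F' k = ∅ ∨ ∃ i, F' k = F i := by
    intro k
    rcases hd : (Encodable.decode k : Option I) with _ | i
    · left
      simp only [F', hd]
    · right
      refine ⟨i, ?_⟩
      simp only [F', hd]
  have hi : ∀ i, F' (Encodable.encode i) = F i := by
    intro i
    simp only [F', Encodable.encodek]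
  refine smallInd_of_iUnion (F := F') (fun k => ?_) ?_ fun k => ?_
  · rcases hk k with h1 | ⟨i, h1⟩
    · rw [h1]; exact isClosed_empty
    · rw [h1]; exact hF i
  · refine Set.eq_univ_of_forall fun x => ?_
    obtain ⟨i, hxi⟩ := h x
    exact Set.mem_iUnion.2 ⟨Encodable.encode i, by rw [hi]; exact hxi⟩
  · rcases hk k with h1 | ⟨i, h1⟩
    · rw [h1]
      exact smallInd_of_isEmpty ⟨fun x => x.2⟩
    · rw [h1]
      exact hS i

/-- a space with the topology induced by a map into `ℝ^n` is in the class -/
theorem smallInd_of_inducing (n : ℕ) : ∀ {X : Type u} [TopologicalSpace X]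
    (f : X → (Fin n → ℝ)), Topology.IsInducing f → SmallInd X := by
  induction n with
  | zero =>
    intro X _ f hf
    refine smallInd_of_compactBase fun x V hV hx => ⟨V, hV, ?_, hx, Set.Subset.rfl⟩
    rw [hf.isCompact_iff]
    exact (Set.toFinite _).isCompact
  | succ n ih =>
    intro X _ f hf
    refine smallInd_of fun Y V hY hV hVY => ?_
    obtain ⟨x, hxV, hxY⟩ := hVY
    obtain ⟨W, hW, rfl⟩ := hf.isOpen_iff.1 hV
    obtain ⟨ε, hε, hball⟩ := Metric.isOpen_iff.1 hW (f x) hxV
    refine ⟨f ⁻¹' Metric.ball (f x) ε, Metric.isOpen_ball.preimage hf.continuous,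
      ⟨x, Metric.mem_ball_self hε, hxY⟩, fun z hz => hball hz.1, Or.inr (Or.inr ?_)⟩
    -- the faces of the box
    let F : Fin (n + 1) × Bool → Set (closure (f ⁻¹' Metric.ball (f x) ε ∩ Y) \
        f ⁻¹' Metric.ball (f x) ε : Set X) := fun p =>
      {z | f z.1 p.1 = f x p.1 + (if p.2 then ε else -ε)}
    have hcont : ∀ i : Fin (n + 1), Continuous fun z : (closure (f ⁻¹' Metric.ball (f x) ε ∩ Y) \
        f ⁻¹' Metric.ball (f x) ε : Set X) => f z.1 i := fun i =>
      (continuous_apply i).comp (hf.continuous.comp continuous_subtype_val)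
    refine smallInd_of_iUnion_countable (F := F) (fun p => ?_) (fun z => ?_) fun p => ?_
    · exact isClosed_eq (hcont p.1) continuous_const
    · have h1 : dist (f z.1) (f x) ≤ ε := by
        have h3 : f ⁻¹' Metric.ball (f x) ε ∩ Y ⊆ f ⁻¹' Metric.closedBall (f x) ε :=
          fun w hw => Metric.ball_subset_closedBall (show f w ∈ Metric.ball (f x) ε from hw.1)
        have h4 : IsClosed (f ⁻¹' Metric.closedBall (f x) ε) :=
          Metric.isClosed_closedBall.preimage hf.continuous
        have h2 : z.1 ∈ f ⁻¹' Metric.closedBall (f x) ε := closure_minimal h3 h4 z.2.1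
        exact h2
      have h2 : ¬ dist (f z.1) (f x) < ε := z.2.2
      rw [dist_pi_lt_iff hε] at h2
      push Not at h2
      obtain ⟨i, hi⟩ := h2
      have h3 : dist (f z.1 i) (f x i) ≤ ε := (dist_le_pi_dist _ _ i).trans h1
      have h4 : |f z.1 i - f x i| = ε := by
        rw [← Real.dist_eq]
        exact le_antisymm h3 hi
      rcases (abs_eq hε.le).1 h4 with h5 | h5
      · refine ⟨(i, true), ?_⟩
        show f z.1 i = f x i + (if true then ε else -ε)
        simp only [if_true]
        linarith
      · refine ⟨(i, false), ?_⟩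
        show f z.1 i = f x i + (if false then ε else -ε)
        simp only [Bool.false_eq_true, if_false]
        linarith
    · set c : ℝ := f x p.1 + (if p.2 then ε else -ε) with hc
      refine ih (fun z : F p => fun j : Fin n => f z.1.1 (p.1.succAbove j)) ?_
      refine Topology.IsInducing.of_comp (g := fun w : Fin n → ℝ =>
        (Fin.insertNth p.1 c w : Fin (n + 1) → ℝ)) ?_ ?_ ?_
      · refine continuous_pi fun j => ?_
        exact (continuous_apply (p.1.succAbove j)).comp
          (hf.continuous.comp (continuous_subtype_val.comp continuous_subtype_val))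
      · exact continuous_const.finInsertNth p.1 continuous_id
      · have h1 : (fun w : Fin n → ℝ => (Fin.insertNth p.1 c w : Fin (n + 1) → ℝ)) ∘
            (fun z : F p => fun j : Fin n => f z.1.1 (p.1.succAbove j)) =
            f ∘ (Subtype.val ∘ Subtype.val) := by
          funext z
          have h2 : c = f z.1.1 p.1 := z.2.symm
          show (Fin.insertNth p.1 c (fun j : Fin n => f z.1.1 (p.1.succAbove j)) :
            Fin (n + 1) → ℝ) = f z.1.1
          rw [h2]
          exact Fin.insertNth_self_removeNth p.1 (f z.1.1)
        rw [h1]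
        exact hf.comp (Topology.IsInducing.subtypeVal.comp Topology.IsInducing.subtypeVal)

/-- countable unions of locally closed, finite-dimensional strata -/
theorem smallInd_of_strata {X : Type u} [TopologicalSpace X] (hX : SecondCountableTopology X)
    {F : ℕ → Set X} (hF : ∀ k, IsLocallyClosed (F k)) (h : ⋃ k, F k = Set.univ)
    (hS : ∀ k, ∃ (n : ℕ) (f : F k → (Fin n → ℝ)), Topology.IsInducing f) : SmallInd X :=
  smallInd_of_iUnion' hX hF h fun k => by
    obtain ⟨n, f, hf⟩ := hS k
    exact smallInd_of_inducing n f hf

end Vale.Agent.P133.H359
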