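import Vale.Agent.P133.H512.Union

/-!
P133 (helper359): countable unions of arbitrary subspaces that are homeomorphic to subspaces of
Euclidean spaces.
-/

namespace Vale.Agent.P133.H359

open Vale.Agent.P133.H330 Vale.Agent.P133.H512 TopologicalSpace

universe u

/-- a base of open sets whose boundaries are in the class `TInd` -/
theorem tInd_of {X : Type u} [TopologicalSpace X]
    (h : ∀ (x : X) (V : Set X), IsOpen V → x ∈ V →
      ∃ U : Set X, IsOpen U ∧ x ∈ U ∧ U ⊆ V ∧ TInd (frontier U)) : TInd X := by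
  refine TInd.intro X {L : Set X // TInd L} (fun k => k.1) (fun x V hV hx => ?_) fun k => k.2
  obtain ⟨U, h1, h2, h3, h4⟩ := h x V hV hx
  exact ⟨⟨_, h4⟩, U, h1, h2, h3, rfl⟩

/-- zero-dimensional spaces -/
theorem tInd_of_clopen {X : Type u} [TopologicalSpace X]
    (h : ∀ (x : X) (V : Set X), IsOpen V → x ∈ V →
      ∃ U : Set X, IsClopen U ∧ x ∈ U ∧ U ⊆ V) : TInd X := by
  refine tInd_of fun x V hV hx => ?_
  obtain ⟨U, h1, h2, h3⟩ := h x V hV hx
  refine ⟨U, h1.isOpen, h2, h3, ?_⟩
  rw [h1.frontier_eq]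
  exact tInd_of_subsingleton _

/-- arbitrary subspaces -/
theorem tInd_of_tInd {Y : Type u} [TopologicalSpace Y] (hY : TInd Y) :
    ∀ (Z : Type u) [TopologicalSpace Z] (f : Z → Y), Topology.IsInducing f → TInd Z := by
  induction hY with
  | intro Y K L h hL ih =>
    intro Z _ f hf
    refine tInd_of fun z V hV hz => ?_
    obtain ⟨W, hW, rfl⟩ := hf.isOpen_iff.1 hV
    obtain ⟨k, U, hU, hzU, hUW, hk⟩ := h (f z) W hW hz
    refine ⟨f ⁻¹' U, hU.preimage hf.continuous, hzU, Set.preimage_mono hUW, ?_⟩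
    have hfr : ∀ y ∈ frontier (f ⁻¹' U), f y ∈ L k := fun y hy => by
      rw [← hk]
      exact hf.continuous.frontier_preimage_subset U hy
    refine ih k _ (fun y : frontier (f ⁻¹' U) => (⟨f y.1, hfr y.1 y.2⟩ : L k)) ?_
    refine Topology.IsInducing.of_comp (g := (Subtype.val : L k → Y)) ?_ continuous_subtype_val
      (hf.comp Topology.IsInducing.subtypeVal)
    exact (hf.continuous.comp continuous_subtype_val).subtype_mk _

/-- Noetherian spaces -/
theorem tInd_of_noetherian {X : Type u} [TopologicalSpace X] [NoetherianSpace X] : TInd X := by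
  have key : ∀ F : Closeds X, TInd F := by
    intro F
    induction F using WellFoundedLT.induction with
    | ind F ih =>
      refine tInd_of fun x V hV hx => ⟨V, hV, hx, Set.Subset.rfl, ?_⟩
      have hc : IsClosed (Subtype.val '' frontier V : Set X) :=
        F.isClosed.isClosedEmbedding_subtypeVal.isClosedMap _ isClosed_frontier
      have hlt : (⟨_, hc⟩ : Closeds X) < F := by
        refine lt_of_le_of_ne ?_ fun h => ?_
        · rintro _ ⟨y, -, rfl⟩
          exact y.2
        · have h1 : x.1 ∈ (⟨_, hc⟩ : Closeds X) := by rw [h]; exact x.2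
          obtain ⟨y, hy, hyx⟩ := h1
          rw [Subtype.ext hyx, hV.frontier_eq] at hy
          exact hy.2 hx
      have hcont : Continuous (fun y : frontier V =>
          (⟨y.1.1, ⟨y.1, y.2, rfl⟩⟩ : (⟨_, hc⟩ : Closeds X))) :=
        (continuous_subtype_val.comp continuous_subtype_val).subtype_mk _
      refine tInd_of_tInd (ih _ hlt) _ _ (Topology.IsInducing.of_comp
        (g := (Subtype.val : (⟨_, hc⟩ : Closeds X) → X)) hcont continuous_subtype_val ?_)
      exact (Topology.IsInducing.subtypeVal (t := (F : Set X))).comp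
        (Topology.IsInducing.subtypeVal (t := frontier V))
  exact tInd_of_tInd (key ⊤) X (fun x => ⟨x, trivial⟩)
    (Topology.IsInducing.of_comp (g := Subtype.val) (continuous_id.subtype_mk _)
      continuous_subtype_val Topology.IsInducing.id)

/-- A set with the topology induced by a map into `ℝ^n` is a countable union of zero-dimensional
subspaces: prescribe the rational coordinates, and ask the others to be irrational. -/
theorem exists_tInd_cover {X : Type u} [TopologicalSpace X] {S : Set X} (n : ℕ)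
    (f : S → (Fin n → ℝ)) (hf : Topology.IsInducing f) :
    ∃ T : ℕ → Set X, (∀ k, TInd (T k)) ∧ S = ⋃ k, T k := by
  classical
  let P : (Fin n → Option ℚ) → Set X := fun r =>
    {x | ∃ h : x ∈ S, (∀ i, r i = none → Irrational (f ⟨x, h⟩ i)) ∧
      ∀ i q, r i = some q → f ⟨x, h⟩ i = (q : ℝ)}
  have hP : ∀ r, TInd (P r) := by
    intro r
    have hg : Topology.IsInducing (fun y : P r => f ⟨y.1, y.2.choose⟩) :=
      hf.comp (Topology.IsEmbedding.inclusion (s := P r) (t := S) fun y hy => hy.choose).isInducing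
    obtain ⟨g, hgdef⟩ : ∃ g : P r → (Fin n → ℝ), g = fun y : P r => f ⟨y.1, y.2.choose⟩ :=
      ⟨_, rfl⟩
    rw [← hgdef] at hg
    have hnone : ∀ y i, r i = none → Irrational (g y i) := by
      intro y i hi
      rw [hgdef]
      exact y.2.choose_spec.1 i hi
    have hsome : ∀ y i q, r i = some q → g y i = (q : ℝ) := by
      intro y i q hi
      rw [hgdef]
      exact y.2.choose_spec.2 i q hi
    have hgc : ∀ i, Continuous fun y => g y i := fun i =>
      (continuous_apply i).comp hg.continuous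
    refine tInd_of_clopen fun x V hV hx => ?_
    obtain ⟨W, hW, rfl⟩ := hg.isOpen_iff.1 hV
    obtain ⟨ε, hε, hball⟩ := Metric.isOpen_iff.1 hW (g x) hx
    have ha : ∀ i, ∃ a : ℚ, g x i - ε < a ∧ (a : ℝ) < g x i := fun i =>
      exists_rat_btwn (by linarith)
    have hb : ∀ i, ∃ b : ℚ, g x i < b ∧ (b : ℝ) < g x i + ε := fun i =>
      exists_rat_btwn (by linarith)
    choose a ha1 ha2 using ha
    choose b hb1 hb2 using hb
    obtain ⟨U, hU⟩ : ∃ U : Set (P r), U = {y | ∀ i, r i = none → (a i : ℝ) < g y i ∧ g y i < b i} :=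
      ⟨_, rfl⟩
    have hU' : U = ⋂ i, {y | r i = none → (a i : ℝ) < g y i ∧ g y i < b i} := by
      rw [hU]
      ext y
      simp only [Set.mem_ofPred_eq, Set.mem_iInter]
    have hUo : IsOpen U := by
      rw [hU']
      refine isOpen_iInter_of_finite fun i => ?_
      by_cases hi : r i = none
      · have h1 : {y : P r | r i = none → (a i : ℝ) < g y i ∧ g y i < b i} =
            {y | (a i : ℝ) < g y i} ∩ {y | g y i < b i} := by
          ext y
          exact ⟨fun h => h hi, fun h _ => h⟩
        rw [h1]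
        exact (isOpen_lt continuous_const (hgc i)).inter (isOpen_lt (hgc i) continuous_const)
      · have h1 : {y : P r | r i = none → (a i : ℝ) < g y i ∧ g y i < b i} = Set.univ :=
          Set.eq_univ_of_forall fun y h => absurd h hi
        rw [h1]
        exact isOpen_univ
    have hUc : IsClosed U := by
      rw [hU']
      refine isClosed_iInter fun i => ?_
      by_cases hi : r i = none
      · have h1 : {y : P r | r i = none → (a i : ℝ) < g y i ∧ g y i < b i} =
            {y | (a i : ℝ) ≤ g y i} ∩ {y | g y i ≤ b i} := by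
          ext y
          refine ⟨fun h => ⟨(h hi).1.le, (h hi).2.le⟩, fun h _ => ⟨?_, ?_⟩⟩
          · exact lt_of_le_of_ne h.1 fun h2 => hnone y i hi ⟨a i, h2⟩
          · exact lt_of_le_of_ne h.2 fun h2 => hnone y i hi ⟨b i, h2.symm⟩
        rw [h1]
        exact (isClosed_le continuous_const (hgc i)).inter (isClosed_le (hgc i) continuous_const)
      · have h1 : {y : P r | r i = none → (a i : ℝ) < g y i ∧ g y i < b i} = Set.univ :=
          Set.eq_univ_of_forall fun y h => absurd h hi
        rw [h1]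
        exact isClosed_univ
    refine ⟨U, ⟨hUc, hUo⟩, ?_, fun y hy => hball ?_⟩
    · rw [hU]
      exact fun i _ => ⟨ha2 i, hb1 i⟩
    · rw [hU] at hy
      rw [Metric.mem_ball, dist_pi_lt_iff hε]
      intro i
      rcases hi : r i with _ | q
      · have h1 := hy i hi
        rw [Real.dist_eq, abs_lt]
        exact ⟨by linarith [ha1 i, h1.1], by linarith [hb2 i, h1.2]⟩
      · rw [hsome y i q hi, hsome x i q hi, dist_self]
        exact hε
  obtain ⟨e, he⟩ := exists_surjective_nat (Fin n → Option ℚ)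
  refine ⟨fun k => P (e k), fun k => hP _, ?_⟩
  ext x
  rw [Set.mem_iUnion]
  constructor
  · intro hx
    let r : Fin n → Option ℚ := fun i =>
      if h : ∃ q : ℚ, (q : ℝ) = f ⟨x, hx⟩ i then some h.choose else none
    obtain ⟨k, hk⟩ := he r
    refine ⟨k, ?_⟩
    rw [hk]
    refine ⟨hx, fun i hi => ?_, fun i q hi => ?_⟩
    · rintro ⟨q, hq⟩
      have h : ∃ q : ℚ, (q : ℝ) = f ⟨x, hx⟩ i := ⟨q, hq⟩
      simp only [r, dif_pos h] at hi
      exact Option.some_ne_none _ hi
    · by_cases h : ∃ q : ℚ, (q : ℝ) = f ⟨x, hx⟩ i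
      · simp only [r, dif_pos h] at hi
        rw [← Option.some.inj hi]
        exact h.choose_spec.symm
      · simp only [r, dif_neg h] at hi
        exact absurd hi (Option.some_ne_none _).symm
  · rintro ⟨k, h, -⟩
    exact h

/-- **Countable unions of arbitrary subspaces** that are of small transfinite inductive dimension,
or homeomorphic to subspaces of Euclidean spaces, or locally closed and in the class. -/
theorem smallInd_of_union_euclid {X : Type u} [TopologicalSpace X] [QuasiSober X]
    (hcc : ∀ (x : X) (U : Set X), IsOpen U → x ∈ U → ∃ V : Set X, IsOpen V ∧ x ∈ V ∧ V ⊆ U ∧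
      ∀ F : Set (Set X), F.Nonempty → DirectedOn (· ⊆ ·) F → (∀ W ∈ F, IsOpen W) → U ⊆ ⋃₀ F →
        ∃ W ∈ F, V ⊆ W) {S : ℕ → Set X}
    (hS : ∀ k, TInd (S k) ∨ (IsLocallyClosed (S k) ∧ SmallInd (S k)) ∨
      ∃ (n : ℕ) (f : S k → (Fin n → ℝ)), Topology.IsInducing f)
    (hSX : ⋃ k, S k = Set.univ) : SmallInd X := by
  have hT : ∀ k, ∃ T : ℕ → Set X,
      (∀ j, TInd (T j) ∨ (IsLocallyClosed (T j) ∧ SmallInd (T j))) ∧ S k = ⋃ j, T j := by
    intro k
    rcases hS k with h | h | ⟨n, f, hf⟩
    · exact ⟨fun _ => S k, fun _ => Or.inl h, (Set.iUnion_const _).symm⟩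
    · exact ⟨fun _ => S k, fun _ => Or.inr h, (Set.iUnion_const _).symm⟩
    · obtain ⟨T, h1, h2⟩ := exists_tInd_cover n f hf
      exact ⟨T, fun j => Or.inl (h1 j), h2⟩
  choose T hT1 hT2 using hT
  refine smallInd_of_union hcc (S := fun m => T m.unpair.1 m.unpair.2) (fun m => hT1 _ _) ?_
  refine Set.eq_univ_of_forall fun x => ?_
  obtain ⟨k, hk⟩ := Set.mem_iUnion.1 (show x ∈ ⋃ k, S k by rw [hSX]; exact Set.mem_univ x)
  rw [hT2 k] at hk
  obtain ⟨j, hj⟩ := Set.mem_iUnion.1 hk
  refine Set.mem_iUnion.2 ⟨Nat.pair k j, ?_⟩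
  simp only [Nat.unpair_pair]
  exact hj

/-- countable unions of arbitrary subspaces that are homeomorphic to subspaces of Euclidean
spaces -/
theorem smallInd_of_euclid_union {X : Type u} [TopologicalSpace X] [QuasiSober X]
    (hcc : ∀ (x : X) (U : Set X), IsOpen U → x ∈ U → ∃ V : Set X, IsOpen V ∧ x ∈ V ∧ V ⊆ U ∧
      ∀ F : Set (Set X), F.Nonempty → DirectedOn (· ⊆ ·) F → (∀ W ∈ F, IsOpen W) → U ⊆ ⋃₀ F →
        ∃ W ∈ F, V ⊆ W) {S : ℕ → Set X}
    (hS : ∀ k, ∃ (n : ℕ) (f : S k → (Fin n → ℝ)), Topology.IsInducing f)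
    (hSX : ⋃ k, S k = Set.univ) : SmallInd X :=
  smallInd_of_union_euclid hcc (fun k => Or.inr (Or.inr (hS k))) hSX

end Vale.Agent.P133.H359
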